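import Crest.Agent.X212.Stp12.Main
import Crest.Agent.X212.Mp86.Lop

/-!
# Row 212, DG-STABP (helper12), part 1: rotations about a parallel axis
-/

set_option autoImplicit false
set_option linter.unusedSectionVars false
noncomputable section
open Set Function Filter Topology MeasureTheory Real
open scoped ContDiff Manifold InnerProductSpace

namespace Crest.Agent.X212.Nkp12
open An An.Pre Sob92 Wz78 Pj41 Nd18 Clr59

variable {E : Type} [NormedAddCommGroup E] [NormedSpace ℝ E] [FiniteDimensional ℝ E]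
  [MeasurableSpace E] [BorelSpace E]
  {HM : Type} [TopologicalSpace HM] {I : ModelWithCorners ℝ E HM} [I.Boundaryless]
  {M : Type} [TopologicalSpace M] [ChartedSpace HM M] [IsManifold I ∞ M]
  [MeasurableSpace M] {ι : Type} [Fintype ι] {lam : Type} [Fintype lam]
  {B : Base M ι lam} {G : Geo I M ι lam} {m : Md M ι lam} {W : m.Cn} {η : M → m.A} {Ω : Set M}
  {x : M} {θ θ' : ℝ}

variable (G W η Ω) in
/-- a parallel axis over `Ω` -/
structure Ax : Prop where
  sm : Sm I η
  mem : ∀ x, η x ∈ m.gS x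
  par : ∀ a x, nab I G.F.e (m.adW W) a η x = 0
  sq : ∀ x ∈ Ω, opL (η x) * opL (η x) = -m.p x
  off : ∀ x ∉ Ω, η x = 0

variable (η θ) in
/-- the rotation -/
def rot (x : M) : En (Fin m.N) :=
  m.p x + sin θ • opL (η x) + (1 - cos θ) • (opL (η x) ∘L opL (η x))

namespace Ax
variable (h : Ax G W η Ω)
include h

theorem rin (hx : x ∈ Ω) : rot η θ x = cos θ • m.p x + sin θ • opL (η x) := by
  rw [rot, ← ContinuousLinearMap.mul_def, h.sq x hx]; module

theorem rout (hx : x ∉ Ω) : rot η θ x = m.p x := by simp [rot, h.off x hx]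

theorem ps (a : Ad B G W) : PS G W W univ (rot η θ) :=
  have k := ps_g a h.sm h.mem h.par
  ((ps_p a).lin k _).lin (k.comp k) _

theorem mul (a : Ad B G W) : rot η θ x * rot η θ' x = rot η (θ + θ') x := by
  by_cases hx : x ∈ Ω
  · simp only [h.rin hx, mul_add, add_mul, smul_mul_assoc, mul_smul_comm, a.ok.pidem x,
      g_p (h.mem x), g_p' a.ok (h.mem x), h.sq x hx, cos_add, sin_add]
    module
  · simp only [h.rout hx, a.ok.pidem x]

theorem trn (a : Ad B G W) : trn (rot η θ x) = rot η (-θ) x := by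
  by_cases hx : x ∈ Ω
  · rw [h.rin hx, h.rin hx, ← map_smul,
      Std94.trn_comm (Std94.pmx a.ok x) _ (Submodule.smul_mem _ _ (h.mem x)), map_smul, cos_neg,
      sin_neg, neg_smul, sub_eq_add_neg]
  · rw [h.rout hx, h.rout hx, Sym.trn (a.ok.psym x)]

theorem iso (a : Ad B G W) : Iso0 I m m univ (rot η θ) :=
  (h.ps a).iso a a isOpen_univ fun x _ => Std94.hs_of_iso (Std94.pmx a.ok x) (by
    rw [h.trn a, ← ContinuousLinearMap.mul_def, h.mul a]; simp [rot])

end Ax

theorem cont_rot (x : M) : Continuous fun θ => rot η θ x := by unfold rot; fun_prop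

theorem rot_zero : rot η 0 x = m.p x := by simp [rot]

theorem exists_ax {r : ℕ} {c : Cfg M ι lam r} (a : Ad B G c.W) (hΩ : IsClopen Ω)
    (hc : IsPreconnected Ω) (h : Red G.F c Ω) : ∃ η, Ax G c.W η Ω := by
  obtain ⟨ξ, p, x₀, h1, h2⟩ := h
  have e1 : ∀ x ∈ Ω, Ω.indicator ξ =ᶠ[𝓝 x] ξ := fun x hx =>
    (hΩ.2.eventually_mem hx).mono fun y hy => indicator_of_mem hy _
  have e2 : ∀ x ∉ Ω, Ω.indicator ξ =ᶠ[𝓝 x] fun _ => 0 := fun x hx =>
    (hΩ.compl.2.eventually_mem hx).mono fun y hy => indicator_of_notMem hy _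
  have s : Sm I (Ω.indicator ξ) := fun x => (em (x ∈ Ω)).elim
    (fun hx => ((p.sm x hx).contMDiffAt (hΩ.2.mem_nhds hx)).congr_of_eventuallyEq (e1 x hx))
    fun hx => contMDiffAt_const.congr_of_eventuallyEq (e2 x hx)
  have g : ∀ x, Ω.indicator ξ x ∈ c.m.gS x := fun x => (em (x ∈ Ω)).elim
    (fun hx => (e1 x hx).self_of_nhds ▸ p.mem x hx) fun hx => (e2 x hx).self_of_nhds ▸ zero_mem _
  have n : ∀ i x, nab I G.F.e (c.m.adW c.W) i (Ω.indicator ξ) x = 0 := fun i x => by
    by_cases hx : x ∈ Ω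
    · rw [← p.par i x hx, nab, nab, dv_congr (e1 x hx), (e1 x hx).self_of_nhds]
    · rw [nab, dv_congr (e2 x hx), (e2 x hx).self_of_nhds]; simp
  have k : ∀ x ∈ Ω, ‖Ω.indicator ξ x‖ ^ 2 = ‖ξ x₀‖ ^ 2 := fun x hx => by
    have := ((ps_g a s g n).mono (subset_univ Ω)).nrm a a hΩ.2 hc h1 hx
    rwa [← Std94.inner_hs', ← Std94.inner_hs', real_inner_self_eq_norm_sq,
      real_inner_self_eq_norm_sq, indicator_of_mem h1] at this
  have h3 : ‖ξ x₀‖ ≠ 0 := norm_ne_zero_iff.2 h2
  refine ⟨fun x => (4 / ‖ξ x₀‖) • Ω.indicator ξ x, fun x => SA.smul contMDiffAt_const (s x),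
    fun x => Submodule.smul_mem _ _ (g x), fun i x => by rw [nab_csmul i _ (s x), n, smul_zero],
    fun x hx => ?_, fun x hx => by rw [indicator_of_notMem hx, smul_zero]⟩
  rw [map_smul, smul_mul_smul_comm, Std94.g_sq a.hB (Std94.pmx a.ok x) (g x), k x hx, smul_smul,
    ← neg_one_smul ℝ (c.m.p x)]
  congr 1; field_simp; norm_num

/-- the maximum principle for a twisted isomorphism -/
theorem max_arg (a : Ad B G W) {W' : m.Cn} {u g X : M → En (Fin m.N)} {c : ι → M → ℝ}
    (su : Sm I u) (pu : Par0 G.F W W' univ u) (e : ∀ i x, W' i x = W i x + c i x • X x)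
    (kX : PS G W W univ X) (kg : PS G W W univ g) (sk : Skw (X x)) (sq : X x * (X x * g x) = -g x)
    (hm : IsLocalMax (fun y => ⟪hsL (u y), hsL (X y ∘L g y)⟫_ℝ) x) (i : ι) :
    c i x * ⟪hsL (u x), hsL (g x)⟫_ℝ = 0 := by
  have kT := kg.comp kX
  have s1 : Sm I fun y => hsL (u y) := fun y => SA.clm hsL (su y)
  have s2 : Sm I fun y => hsL (X y ∘L g y) := fun y => SA.clm hsL (kT.sm y trivial)
  have s3 : Sm I fun y => ⟪hsL (u y), hsL (X y ∘L g y)⟫_ℝ := fun y => SA.inner (s1 y) (s2 y)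
  have k := (Mp86.dv_dv_nonpos ((G.F.sm i x).of_le (by simp)) (.of_forall fun y => SA.md (s3 y))
    (SA.md (dv_smoothAt (G.F.sm i x) (s3 x))) hm).1
  have n1 : nabE I G.F.e W i u x = -(c i x • (X x * u x)) := by
    have := pu x trivial i
    rw [e, ← ContinuousLinearMap.mul_def, ← ContinuousLinearMap.mul_def, add_mul,
      smul_mul_assoc] at this
    rw [nabE, eq_neg_iff_add_eq_zero, ← this, Pre.D_def]; abel
  have n2 : nabE I G.F.e W i (fun y => X y ∘L g y) x = 0 := by
    rw [nabE, ← add_sub_assoc]; exact kT.par x trivial i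
  rw [dv_inner (A := m.adW W) i (adc_skw (a.cn.sk i x)) (s1 x) (s2 x), hsL_nab i (su x),
    hsL_nab i (kT.sm x trivial), n1, n2, map_zero, inner_zero_right, add_zero, map_neg, map_smul,
    inner_neg_left, real_inner_smul_left, inner_mul_l sk, ← ContinuousLinearMap.mul_def, sq, map_neg,
    inner_neg_right, neg_neg, neg_eq_zero] at k
  exact k

end Crest.Agent.X212.Nkp12
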