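import Crest.Agent.X212.Nkp12.Nkd_Mg
import Crest.Agent.X212.Gb50.Zer
import Crest.Agent.X212.Cay24.GlB

/-!
# Row 212, DG-STABP (helper12), part 3: no gluing parameter at a wall with an abelian inside
-/

set_option autoImplicit false
set_option linter.unusedSectionVars false
noncomputable section
open scoped Manifold ContDiff Topology InnerProductSpace NNReal
open MeasureTheory Set Function Filter Real

namespace Crest.Agent.X212.Nkp12
open An An.Job M Sob92 Cyf70 Pj41 Nd18 Bki64 Gj67 Wz78 Clr59 Cay24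
open Rdc90 (Bs Har bh)
open Rf65 (PY dz ParY)
open Cnt93 (LU Rh)

section abs
variable {V : Type} [NormedAddCommGroup V] [InnerProductSpace ℝ V]

theorem sign_lim {V Y : Type} [NormedAddCommGroup V] [NormedSpace ℝ V] {N : ℝ → Y → V} {X : Y → V}
    {y₀ : Y} {R : ℝ} (hc : ContinuousOn (N · y₀) (Ioi R)) (h0 : X y₀ ≠ 0)
    (h : ∀ ε > 0, ∀ᶠ s in atTop, ∃ σ : ℝ, (σ = 1 ∨ σ = -1) ∧ ∀ y, ‖N s y - σ • X y‖ ≤ ε) :
    ∃ σ : ℝ, (σ = 1 ∨ σ = -1) ∧ ∀ ε > 0, ∀ᶠ s in atTop, ∀ y, ‖N s y - σ • X y‖ ≤ ε := by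
  have x0 := half_pos (norm_pos_iff.2 h0)
  have k : ∀ s, ‖N s y₀ - (-1 : ℝ) • X y₀‖ ≤ ‖X y₀‖ / 2 → ‖X y₀‖ < ‖N s y₀ - X y₀‖ := fun s k => by
    have := norm_sub_le (N s y₀ - (-1 : ℝ) • X y₀) (N s y₀ - X y₀)
    rw [show N s y₀ - (-1 : ℝ) • X y₀ - (N s y₀ - X y₀) = (2 : ℝ) • X y₀ by module, norm_smul,
      Real.norm_two] at this
    linarith
  have k' : ∀ s, ‖N s y₀ - (1 : ℝ) • X y₀‖ ≤ ‖X y₀‖ / 2 → ‖N s y₀ - X y₀‖ < ‖X y₀‖ := fun s k => by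
    rw [one_smul] at k; linarith
  obtain ⟨S, hS⟩ := eventually_atTop.1 ((h _ x0).and (eventually_gt_atTop R))
  have c : ContinuousOn (fun s => ‖N s y₀ - X y₀‖) (Ici S) :=
    ((hc.mono fun s hs => (hS s hs).2).sub continuousOn_const).norm
  have ne : ∀ s ∈ Ici S, ‖N s y₀ - X y₀‖ ≠ ‖X y₀‖ := fun s hs => by
    obtain ⟨σ, rfl | rfl, k1⟩ := (hS s hs).1
    exacts [(k' s (k1 _)).ne, (k s (k1 _)).ne']
  rcases (ne S self_mem_Ici).lt_or_gt with e | e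
  · refine ⟨1, .inl rfl, fun ε hε => ?_⟩
    filter_upwards [h _ (lt_min hε x0), eventually_ge_atTop S] with s ⟨σ, k1, k2⟩ hs y
    obtain rfl | rfl := k1
    · exact (k2 y).trans (min_le_left _ _)
    · exact ((k s ((k2 _).trans (min_le_right _ _))).not_gt
        (isPreconnected_Ici.gt_of_ne c ne ⟨S, self_mem_Ici, e⟩ hs)).elim
  · refine ⟨-1, .inr rfl, fun ε hε => ?_⟩
    filter_upwards [h _ (lt_min hε x0), eventually_ge_atTop S] with s ⟨σ, k1, k2⟩ hs y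
    obtain rfl | rfl := k1
    · exact ((k' s ((k2 _).trans (min_le_right _ _))).not_gt
        (isPreconnected_Ici.lt_of_ne c ne ⟨S, self_mem_Ici, e⟩ hs)).elim
    · exact (k2 y).trans (min_le_left _ _)

/-- the phase which returns to the slice -/
theorem phase {J : V →L[ℝ] V} {v : ℝ → V} {ψ : V} (hv : Tendsto v (𝓝 0) (𝓝 ψ)) (h0 : J ψ ≠ 0)
    (h1 : ⟪J ψ, ψ⟫_ℝ = 0) {ρ : ℝ} (hρ : 0 < ρ) : ∀ᶠ θ in 𝓝 (0 : ℝ), ∃ ζ : Circle,
      ⟪J ψ, (ζ : ℂ).re • v θ + (ζ : ℂ).im • J (v θ) - ψ⟫_ℝ = 0 ∧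
      ‖(ζ : ℂ).re • v θ + (ζ : ℂ).im • J (v θ) - ψ‖ ≤ ρ := by
  have hJ := (J.continuous.tendsto ψ).comp hv
  have a0 : 0 < ⟪J ψ, J ψ⟫_ℝ := real_inner_self_pos.2 h0
  set z : ℝ → ℂ := fun θ => (⟪J ψ, J (v θ)⟫_ℝ : ℂ) - ⟪J ψ, v θ⟫_ℝ * Complex.I with hz
  have t : Tendsto z (𝓝 0) (𝓝 (⟪J ψ, J ψ⟫_ℝ : ℂ)) := by
    have := ((tendsto_const_nhds (x := J ψ)).inner (𝕜 := ℝ) hJ).ofReal.sub
      (((tendsto_const_nhds (x := J ψ)).inner (𝕜 := ℝ) hv).ofReal.mul_const Complex.I)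
    rwa [h1, Complex.ofReal_zero, zero_mul, sub_zero] at this
  have n : (⟪J ψ, J ψ⟫_ℝ : ℂ) ≠ 0 := Complex.ofReal_ne_zero.2 a0.ne'
  have t' : Tendsto (fun θ => z θ / ‖z θ‖) (𝓝 0) (𝓝 1) := by
    have := t.div t.norm.ofReal (by simpa using n)
    rwa [Complex.norm_real, Real.norm_of_nonneg a0.le, div_self n] at this
  have t'' := (((Complex.continuous_re.tendsto _).comp t').smul hv).add
    (((Complex.continuous_im.tendsto _).comp t').smul hJ)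
  simp only [Complex.one_re, Complex.one_im, one_smul, zero_smul, add_zero] at t''
  filter_upwards [t.eventually_ne n, t''.eventually (Metric.closedBall_mem_nhds _ hρ)] with θ k1 k2
  refine ⟨⟨z θ / ‖z θ‖, by simp [Submonoid.unitSphere, k1]⟩, ?_, by rwa [← dist_eq_norm]⟩
  simp only [inner_sub_right, inner_add_right, real_inner_smul_right, h1, Complex.div_ofReal_re,
    Complex.div_ofReal_im]
  simp [hz]; ring

theorem phase_LU {κ : Type} [Fintype κ] {J p : En κ} {g : ℝ → En κ} {ψ : L2c κ} (hJ : J * J = -1)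
    (sk : Skw J) (hψ : ψ ∈ Hd J p) (h1 : ‖ψ‖ = 1) (hg : Continuous g) (h0 : LU (g 0) ψ = ψ) {ρ : ℝ}
    (hρ : 0 < ρ) : ∀ᶠ θ in 𝓝 (0 : ℝ), ∃ ζ : Circle,
      ⟪LU J ψ, LU (csE J ζ ∘L g θ) ψ - ψ⟫_ℝ = 0 ∧ ‖LU (csE J ζ ∘L g θ) ψ - ψ‖ ≤ ρ := by
  have e : ∀ (ζ : ℂ) θ, LU (csE J ζ ∘L g θ) ψ = ζ.re • LU (g θ) ψ + ζ.im • LU J (LU (g θ) ψ) :=
    fun ζ θ => by
    rw [Cnt93.LU_LU, csE, ContinuousLinearMap.add_comp, ContinuousLinearMap.smul_comp,
      ContinuousLinearMap.smul_comp, LU, ContinuousLinearMap.add_compLpL,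
      ContinuousLinearMap.smul_compLpL, ContinuousLinearMap.smul_compLpL]
    rfl
  simp only [e]
  refine phase (((((ContinuousLinearMap.id ℝ _).compLpL₂ 2 μc).continuous.comp hg).clm_apply
    continuous_const).tendsto' _ _ h0) (fun e => ?_) ?_ hρ
  · have := congrArg (LU J) e
    rw [Cnt93.LU_LU, ← ContinuousLinearMap.mul_def, hJ, ← neg_one_smul ℝ (1 : En _),
      LU, ContinuousLinearMap.smul_compLpL, map_zero, _root_.smul_apply,
      Cnt93.LU_self (J := J) (Cnt93.It.comm.2 (by simp)) (fun _ _ => rfl) hψ,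
      neg_one_smul, neg_eq_zero] at this
    simp [this] at h1
  · have := Cnt93.inner_LU J ψ ψ
    rw [Skw.trn sk, ← neg_one_smul ℝ J, LU, LU, ContinuousLinearMap.smul_compLpL,
      _root_.smul_apply, real_inner_smul_right, real_inner_comm] at this
    rw [real_inner_comm]; linarith

theorem all_of {S : ℝ → Prop} (h : ∀ᶠ θ in 𝓝 (0 : ℝ), S θ) (k : ∀ a b, S a → S b → S (a + b))
    (θ : ℝ) : S θ := by
  obtain ⟨n, h1, h2⟩ := (((tendsto_const_div_atTop_nhds_zero_nat θ).eventually h).and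
    (eventually_gt_atTop 0)).exists
  have : ∀ m : ℕ, S (m * (θ / n)) := fun m => by
    induction m with
    | zero => simpa using h.self_of_nhds
    | succ m ih => rw [Nat.cast_succ, add_mul, one_mul]; exact k _ _ ih h1
  have e := this n
  rwa [mul_div_cancel₀ _ (Nat.cast_pos.2 h2).ne'] at e

theorem alg5 {A : Type} [Ring A] {d w w' g : A} (k : d + w * g - g * w = 0) :
    d + w' * g - g * w' = g * (w - w') - (w - w') * g := by
  rw [← sub_eq_zero, ← k]; noncomm_ring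

theorem fin_le {V : Type} [NormedAddCommGroup V] [NormedSpace ℝ V] {g r p p' e x : V}
    {α τ ε : ℝ} (t : τ = 1 ∨ τ = -1) (h1 : g = cos (τ * α) • p + sin (τ * α) • e)
    (h2 : r = cos α • p' + sin α • x) (h3 : p = p') (h4 : ‖e - τ • x‖ ≤ ε) : ‖g - r‖ ≤ ε := by
  have e2 : cos (τ * α) = cos α ∧ sin α = sin (τ * α) * τ := by
    rcases t with rfl | rfl <;> simp only [one_mul, mul_one, neg_mul, cos_neg, sin_neg, mul_neg,
      neg_neg, and_self]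
  rw [h1, h2, h3, e2.1, e2.2, mul_smul, add_sub_add_left_eq_sub, ← smul_sub]
  exact (norm_smul_le _ _).trans
    ((mul_le_of_le_one_left (norm_nonneg _) (abs_sin_le_one _)).trans h4)

end abs

section lim
variable {E3 : Type} [NormedAddCommGroup E3] [NormedSpace ℝ E3] [FiniteDimensional ℝ E3]
  [MeasurableSpace E3] [BorelSpace E3]
  {H3 : Type} [TopologicalSpace H3] {I3 : ModelWithCorners ℝ E3 H3} [I3.Boundaryless]
  {Y : Type} [TopologicalSpace Y] [ChartedSpace H3 Y] [IsManifold I3 ∞ Y] [T2Space Y]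
  [MeasurableSpace Y] [BorelSpace Y] [SecondCountableTopology Y] [CompactSpace Y] [ConnectedSpace Y]
  {κ : Type} [Fintype κ] {lam : Type} [Fintype lam] {D : YD I3 Y κ lam} {β : YC Y κ lam}
  {ξ : Y → β.m.A}

/-- a skew, asymptotically parallel automorphism converges to `±ξ` -/
theorem Gn.lim (G : Gn D β ξ) {t : Y × ℝ → En (Fin β.m.N)} {R : ℝ}
    (c : ∀ y, ContinuousOn (fun s => t (y, s)) (Ioi R)) (sk : ∀ y, ∀ s > R, Skw (t (y, s)))
    (h : ∀ ε > 0, ∀ᶠ s in atTop, Iso0 (IC I3) (cy β).m (cy β).m (win Y s 1) t ∧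
      ∀ a, ∀ x ∈ win Y s 1, ‖Bki64.cov D.Z (cy β) (cy β) t a x‖ ≤ ε) :
    ∃ τ : ℝ, (τ = 1 ∨ τ = -1) ∧ ∀ ε > 0, ∀ᶠ s in atTop, ∀ y, ‖t (y, s) - τ • opL (ξ y)‖ ≤ ε := by
  obtain ⟨y₀⟩ : Nonempty Y := inferInstance
  refine sign_lim (N := fun s y => t (y, s)) (X := fun y => opL (ξ y)) (c y₀)
    (fun e : opL (ξ y₀) = 0 => G.p_ne y₀ (by simpa [e] using G.sq y₀)) fun ε hε => ?_
  refine mem_iff_ultrafilter.2 fun 𝒰 h𝒰 => ?_
  obtain ⟨θ, hθ⟩ := G.near_rot (𝒰 := 𝒰) (t := fun _ => t) (s := id) fun ε hε => h𝒰 (h ε hε)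
  have l : Tendsto (fun s => t (y₀, s)) 𝒰 (𝓝 (rot ξ θ y₀)) :=
    Metric.tendsto_nhds.2 fun ε hε => (hθ _ (half_pos hε)).mono fun s k => by
      rw [dist_eq_norm]; exact (k y₀).trans_lt (half_lt_self hε)
  have sk : trn (rot ξ θ y₀) = -rot ξ θ y₀ := tendsto_nhds_unique
    ((Eqv71.trnL.continuous.tendsto _).comp l) (l.neg.congr' ((show ∀ᶠ s in (𝒰 : Filter ℝ), R < s
      from h𝒰 (eventually_gt_atTop _)).mono fun s hs => (Skw.trn (sk y₀ s hs)).symm))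
  have c0 : cos θ = 0 := by
    have e : trn (rot ξ θ y₀) = rot ξ (-θ) y₀ := G.ax.trn (x := (y₀, 0)) G.ad
    rw [e, G.rin, G.rin, cos_neg, sin_neg, neg_smul, neg_add, add_left_inj, eq_neg_iff_add_eq_zero,
      ← add_smul, smul_eq_zero, or_iff_left (G.p_ne y₀)] at sk
    linarith
  filter_upwards [hθ ε hε] with s k1
  exact ⟨sin θ, cos_eq_zero_iff_sin_eq.1 c0, fun y => by
    have := k1 y
    rwa [G.rin, c0, zero_smul, zero_add, id] at this⟩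

end lim

variable {Wi : Type} {X : Mf 4} {A κ lam : Type} [Fintype A] [Fintype κ] [Fintype lam]
  [DecidableEq lam] {M : Mark X A κ} {W : World M} {L : ML M lam} {Λ : Lns W L}
  {A' h : Type} [Fintype A'] [DecidableEq A'] [Fintype h] {r n : ℕ}
  {J : Job Wi Λ A' h r n} {σ : Cel A'} {a : A'}
  {U Up R : Type} [NormedAddCommGroup U] [NormedSpace ℝ U] [NormedAddCommGroup Up]
  [NormedSpace ℝ Up] [NormedAddCommGroup R] [NormedSpace ℝ R] {d : Dat J σ a U Up R}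
  {q₀ : Wi →₀ ℝ} {δ : ℝ} (H : d.OK q₀ δ) {η : (W.Z (J.cf a)).M → d.y.x.m.A}
  {Ω : Set (W.Z (J.cf a)).M} (K : Ax (J.G (J.cf a) d.y.s) d.y.x.W η Ω)
include H

theorem adS : Ad (J.B (J.cf a)) (J.G (J.cf a) d.y.s) d.y.x.W :=
  ⟨Λ.B_ok _ _, (H.ok.G_ok H.mem H.sol.ov).P, H.sol.sol.ok, H.sol.sol.conn⟩

/-- uniqueness of the fields of the cuts in the slice -/
theorem uniq {k : ℕ} (S : d.IsoS q₀ δ k) : ∃ ρ > 0, ∀ ψ : ∀ i, (J.cut (J.cf a) i).H (J.B _) d.y.x.m,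
    (∀ i, (J.cut _ i).Sol (J.B _) (J.G _ d.y.s).F (J.σc _ q₀ d.y.s i) d.y.x (ψ i) ∧
      ⟪LU d.Jc (d.y.ψ i).1, (ψ i).1 - (d.y.ψ i).1⟫_ℝ = 0 ∧ ‖(ψ i).1 - (d.y.ψ i).1‖ ≤ ρ) →
    ∀ i, (ψ i).1 = (d.y.ψ i).1 := by
  obtain ⟨C, ρ, p, S⟩ := S
  refine ⟨ρ, p, fun ψ s => ?_⟩
  obtain ⟨φ, hφ⟩ : ∃ φ : h → L2c (Fin d.N), ∀ i, φ i = (ψ i).1 - (d.y.ψ i).1 := ⟨_, fun _ => rfl⟩
  have z : (d.sS q₀).e 0 (0, 0, 0, φ) = 0 := by
    have z0 := Gb50.zer_s H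
    refine Prod.ext (congrArg Prod.fst z0 :) (Prod.ext (funext fun i => ?_) (Prod.ext
      (funext fun i => ?_) (Prod.ext (funext fun i => ?_) (congrArg (·.2.2.2.2) z0 :))))
    · have k := (s i).1
      rw [← Gb50.s_one H] at k
      have e : (d.y.ψ i).1 + φ i = (ψ i).1 := by rw [hφ, add_sub_cancel]
      exact Gb50.crow_zero k (Gb50.cfg_S H) (heq_of_eq e)
    · show ‖(d.y.ψ i).1 + φ i‖ ^ 2 - 1 = 0
      rw [hφ, add_sub_cancel, show ‖(ψ i).1‖ = 1 from (s i).1.1]; norm_num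
    · show ⟪LU d.Jc (d.y.ψ i).1, φ i⟫_ℝ = 0
      rw [hφ]; exact (s i).2.1
  have := S 0 (zero_mem _) (0, 0, 0, φ) (by
    simp only [Prod.norm_mk, norm_zero, max_le_iff, NNReal.zero_le_coe, true_and]
    exact (pi_norm_le_iff_of_nonneg ρ.2).2 fun i => hφ i ▸ (s i).2.2) (by rw [Gl67.Sd.Q_zero]; simp)
  rw [z, show (d.sS q₀).E 0 (0, 0, 0, φ) = 0 from Gb50.zer_S H,
    Gl67.Sd.Q_zero, Gl67.Sd.Q_zero, Gl67.q2_zero, add_zero, mul_zero, zero_add, nonpos_iff_eq_zero,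
    Gl67.q2, ENNReal.ofReal_eq_zero, sq_nonpos_iff, norm_eq_zero] at this
  exact fun i => sub_eq_zero.1 ((hφ i).symm.trans (congrFun (congrArg (·.2.2.2) this) i))

include K

theorem ceq (h0 : ∀ x ∈ Ω, d.y.x.Φ x = 0) (θ : ℝ) : CEq (J.G (J.cf a) d.y.s).F d.y.x d.y.x univ id
    (fun x b a' => (J.B (J.cf a)).P b a' x) (J.B (J.cf a)).l (rot η θ) 1 := by
  have a := adS H
  refine ⟨(K.iso a).mEq (OK.on a.ok _) (OK.on a.ok _),
    (par0_iff ((IsConn.on a.cn _).proj' a.hB)).1 (K.ps a).par, fun x _ => ?_, by simp⟩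
  by_cases hx : x ∈ Ω
  · simp [h0 x hx, An.cs]
  · rw [K.rout hx, ← H.sol.sol.pos x, Eqv71.p_pp a.ok, H.sol.sol.pos x]; simp

/-- the fields of the cuts are fixed up to a phase -/
theorem cut_fix {k : ℕ} (S : d.IsoS q₀ δ k) (h0 : ∀ x ∈ Ω, d.y.x.Φ x = 0) (θ : ℝ) (i : h) :
    (J.cut (J.cf a) i).Eqv (J.cut (J.cf a) i) (J.B _) (J.B _) (rot η θ) (d.y.ψ i) (d.y.ψ i) := by
  have A := adS H
  have ad := Eqv71.ad0 H.sol.sol.toAdm
  have g := H.ok.kt H.mem H.sol.ov isClopen_univ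
  have c := fun i => H.sol.cut i (Gb50.mem_H H i)
  have Rl := fun i => Cnt93.rel_refl (k := J.cut (J.cf a) i) g.hB (subset_univ _)
  revert θ i
  refine all_of ?_ fun θ θ' k1 k2 i => ?_
  swap
  · have := Cnt93.eqv_trans (φ := id) rfl ((ceq H K h0 θ).m.J _ trivial) A.ok.Jsq (k2 i) (k1 i)
    rwa [show (fun x => rot η θ (id x) ∘L rot η θ' x) = rot η (θ + θ') from
      funext fun x => K.mul A] at this
  obtain ⟨ρ, p, S⟩ := uniq H S
  filter_upwards [eventually_all.2 fun i => phase_LU A.ok.Jsq A.ok.Jsk (d.y.ψ i).2 (c i).1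
    (cont_rot (η := η) (J.cut _ i).x0) (by rw [rot_zero]; exact Cnt93.mem_p A.ok _) p] with θ k
  choose ζ k using k
  have e := Eqv71.cr0_univ ad ad (ceq H K h0 θ)
  have e1 := fun i => Cnt93.coe_Rh (g.toLG.of_ceq ad ad e.e) (Rl i) (ζ i) (d.y.ψ i)
  refine fun i => ⟨ζ i, (S _ (fun i => ⟨?_, e1 i ▸ k i⟩) i).symm.trans (e1 i)⟩
  have u := H.sol.sub (Gb50.mem_H H i)
  have ok := H.ok.ct σ H.mem _ H.sol.ov.1 _ H.sol.inf i u
  exact (Eqv71.PcRel0.sol (H.ok.σc_nat H.mem H.sol.ov isClopen_univ u (subset_univ _) q₀) g.toLG ok ok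
    (Rl i) e ⟨ζ i, e1 i⟩).2 (c i)

/-- the rotations are asymptotically parallel along the inner end -/
theorem near_ax (θ : ℝ) (ε : ℝ) (hε : 0 < ε) : ∀ᶠ s in atTop,
    Iso0 (IC (J.xs d.x).Y.I) (cy (d.β 0)).m (cy (d.β 0)).m (win d.Y s 1)
      (fun x => rot (m := d.y.x.m) η θ ((d.KS false).ψ x)) ∧ ∀ b, ∀ x ∈ win d.Y s 1,
      ‖Bki64.cov d.D.Z (cy (d.β 0)) (cy (d.β 0)) (fun x => rot (m := d.y.x.m) η θ ((d.KS false).ψ x))
        b x‖ ≤ ε := by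
  have A := adS H
  obtain ⟨δ', p, hA, -⟩ := H.dec
  choose C hC using fun i => hA i []
  filter_upwards [eventually_ge_atTop (d.R0 + 1), eventually_all.2 fun i =>
    End14.ev_small (show 0 < δ' by linarith [H.δ0]) (|C i| * exp δ') (half_pos hε)] with s k1 k2
  have m : ∀ x ∈ win d.Y s 1, d.R0 < -pm false * x.2 := fun x hx => by
    rw [show -pm false = 1 by simp [pm], one_mul]; linarith [hx.2.1]
  have i := K.iso (θ := θ) A
  refine ⟨⟨fun x hx => (d.KS false).rel.sm (src_of H (m x hx)) (i.su _ trivial), fun x hx => ?_,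
    fun x _ => i.J _ trivial, fun x hx b => ?_, fun x hx w => ?_⟩, fun b x hx => ?_⟩
  · have := i.iso ((d.KS false).ψ x) trivial
    rw [show d.y.x.m.p _ = d.pZ x.1 from lit_ψ H.lp (m x hx)] at this; exact this
  · have := i.ρ ((d.KS false).ψ x) trivial b
    rw [show d.y.x.m.ρ b _ = d.ρZ b x.1 from lit_ψ (H.lρ b) (m x hx)] at this; exact this
  · have := i.j ((d.KS false).ψ x) trivial w
    rw [show d.y.x.m.j _ = d.jZ x.1 from lit_ψ H.lj (m x hx)] at this; exact this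
  have k3 := (K.ps (θ := θ) A).par ((d.KS false).ψ x) trivial b
  rw [← (d.KS false).rel.D (src_of H (m x hx)) b (.of_forall fun _ => rfl)] at k3
  have k4 : ‖d.y.x.W b ((d.KS false).ψ x) - (d.AZ b x.1 + opL (d.bZ x.1 0 b))‖ ≤ ε / 2 := by
    rw [map_zero, PiLp.zero_apply, map_zero, add_zero]
    refine ((hC b false x (m x hx)).trans ?_).trans (k2 b)
    rw [mul_assoc, ← exp_add]
    exact mul_le_mul (le_abs_self _) (exp_le_exp.2 (by
      nlinarith [hx.2.1, le_abs_self x.2, H.δ0])) (exp_pos _).le (abs_nonneg _)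
  have k5 := norm_iso (i.iso ((d.KS false).ψ x) trivial)
  exact le_of_eq_of_le (congrArg norm (alg5 (w' := d.AZ b x.1 + opL (d.bZ x.1 0 b)) k3))
    ((norm_sub_le_of_le ((norm_mul_le _ _).trans (mul_le_mul k5 k4 (norm_nonneg _) zero_le_one))
    ((norm_mul_le _ _).trans (mul_le_mul k4 k5 (norm_nonneg _) (half_pos hε).le))).trans_eq
    (by ring))

/-- the axis converges along the inner end -/
theorem lim_ax {ξ : d.Y → d.y.x.m.A} [ConnectedSpace d.Y] (G : Gn d.D (d.β 0) ξ)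
    (hi : ∀ z : d.Y × ℝ, d.R0 < -pm false * z.2 → (d.KS false).ψ z ∈ Ω) :
    ∃ τ : ℝ, (τ = 1 ∨ τ = -1) ∧ ∀ ε > 0, ∀ᶠ s in atTop, ∀ y,
      ‖opL (η ((d.KS false).ψ (y, -pm false * s))) - τ • opL (ξ y)‖ ≤ ε := by
  have e0 : ∀ s, -pm false * s = s := fun s => by simp [pm]
  have e1 : ∀ y, ∀ s > d.R0, d.R0 < -pm false * (y, s).2 := fun (y : d.Y) s hs => (e0 s).symm ▸ hs
  have eN : ∀ y, ∀ s > d.R0, rot η (π / 2) ((d.KS false).ψ (y, s)) =
      opL (η ((d.KS false).ψ (y, s))) := fun y s hz => by simp [K.rin (hi _ (e1 y s hz))]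
  obtain ⟨τ, t1, t2⟩ := G.lim (t := fun x => rot (m := d.y.x.m) η (π / 2) ((d.KS false).ψ x)) (R := d.R0)
    (fun y s hs => ContinuousAt.continuousWithinAt
      (((K.iso (adS H)).su _ trivial).continuousAt.comp (((d.KS false).ψ.continuousAt
        (src_of H (e1 y s hs))).comp (f := fun s => (y, s)) (by fun_prop))))
    (fun y s hs => (congrArg Skw (eN y s hs)).mpr (K.mem _).1) (near_ax H K _)
  refine ⟨τ, t1, fun ε hε => ?_⟩
  filter_upwards [t2 ε hε, eventually_gt_atTop d.R0] with s k1 k2 y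
  rw [e0, ← eN y s k2]
  exact k1 y

omit K in
/-- **STAB** at a wall of positive scalar curvature with an abelian inside -/
theorem stab {k b : ℕ} (S : d.IsoS q₀ δ k) (py : PY d.D b) (hβ : Bs d.D (d.β 0)) (mv : Mv d)
    (h1 : dz d.D (d.β 0) = 1) {ϖ : Reg A} (hϖ : M.sys.Piece (J.cf a).1 ϖ) (e : ϖ d.x = some false)
    (h0 : ¬d.y.TF ϖ) (hr : Red (J.G _ d.y.s).F d.y.x (W.pc _ ϖ)) : d.Stab := by
  have := J.conn_xs d.x
  have := M.con
  have A := adS H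
  obtain ⟨ξ, G⟩ := exists_gn hβ h1
  obtain ⟨η, K⟩ := exists_ax A (Cyl58.isClopen_pc _ hϖ) (Cyl58.isConnected_pc _ hϖ).2 hr
  have en : ∀ {b ϖ}, M.sys.Piece (J.cf a).1 ϖ → ϖ d.x = some b → ∀ z : d.Y × ℝ,
      d.R0 < -pm b * z.2 → (d.KS b).ψ z ∈ W.pc _ ϖ := fun h1 h2 z hz =>
    (H.ok.nk _ _ _ _ _).end_mem (d.hb _) h1 h2 ((d.KS _).mem_src.1 (src_of H hz))
  obtain ⟨τ, t1, t2⟩ := lim_ax H K G (en hϖ e)
  obtain ⟨ε, p, hs⟩ := G.slice py
  obtain ⟨C, -, hC⟩ := (H.okZ 0).cb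
  have c0 : 0 < |C 0| + 1 := by positivity
  refine ⟨ε / (|C 0| + 1), div_pos p c0, fun u hu γ ζ hγ => ?_⟩
  obtain rfl : u = 0 := by
    refine mv.inj u (hs _ (mv.har u) (fun k y => (PiLp.norm_apply_le _ _).trans
      (((d.bZ y).le_of_opNorm_le_of_le ((CB_zero.1 (hC 0) (y, 0)).trans (le_abs_self _)) hu).trans
      ?_)) (γ true) ζ ?_)
    · rw [← mul_div_assoc, div_le_iff₀ c0]; nlinarith
    · have : ∀ β' : YC d.Y κ (lam ⊕ lam), d.β u = β' → ∃ g : d.Y → CL (d.β 0).m.V β'.m.V,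
          Stb d.D (d.β 0) β' g ζ ∧ g ≍ γ true := fun _ e => e ▸ ⟨_, hγ true, .rfl⟩
      obtain ⟨g, g1, g2⟩ := this _ (β_eq H u)
      exact eq_of_heq g2 ▸ g1
  choose θ hθ using fun b => G.stb_rot (hγ b)
  have z := fun x hx => d.y.zero h0 (x := x) hx
  have mul : ∀ b y, rot ξ (-θ true) y ∘L γ b y = rot ξ (-θ true + θ b) y := fun b y => by
    rw [hθ]; exact G.ax.mul (x := (y, 0)) G.ad
  refine ⟨rfl, rot η (τ * (-θ true + θ false)), rot ξ (-θ true), ζ⁻¹,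
    ⟨by rw [inv_mul_cancel]; exact ceq H K z _, cut_fix H K S z _⟩, .of_forall fun u => ?_,
    fun b ε hε => ?_⟩
  · have : ∀ β' : YC d.Y κ (lam ⊕ lam), bh (d.β 0) (bz d u) 0 = β' → ∃ g : d.Y → CL β'.m.V β'.m.V,
        Stb d.D β' β' g ζ⁻¹ ∧ g ≍ rot ξ (-θ true) := fun _ e =>
      e ▸ ⟨_, G.rot_stb py (mv.har u), .rfl⟩
    obtain ⟨g, g1, g2⟩ := this _ (β_eq H u).symm
    exact eq_of_heq g2 ▸ g1
  have ev : ∀ᶠ s in atTop, d.R0 < -pm b * (-pm b * s) := (eventually_gt_atTop d.R0).mono fun s hs =>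
    by cases b <;> simpa [pm] using hs
  cases b
  · filter_upwards [ev, t2 ε hε] with s k1 k2 y
    exact fin_le t1 (K.rin (en hϖ e _ k1)) ((mul _ y).trans (G.rin y)) (lit_ψ H.lp (z := (y, _)) k1)
      (k2 y)
  · obtain ⟨ϖ', h2, h3⟩ := (Sys.existsUnique_adj (J.cf a).2 (d.hb true).2.2.2 true).exists
    filter_upwards [ev] with s k1 y
    exact (norm_sub_eq_zero_iff.2 (((K.rout fun k => by
      cases e.symm.trans (Cyl58.pc_unique _ hϖ h2 k (en h2 h3 _ k1) ▸ h3)).trans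
      (lit_ψ H.lp (z := (y, _)) k1)).trans ((mul _ y).trans
      ((congrArg (rot ξ · y) (neg_add_cancel _)).trans rot_zero)).symm)).trans_le hε.le

end Crest.Agent.X212.Nkp12
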